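import Vale.Agent.P275K0.Cp0
import Vale.Agent.P275MB.Gau
import Vale.Agent.P275HK.Hom

/-! The obstruction space is killed by the bundle and frame directions. -/

set_option linter.unusedSectionVars false

open scoped Topology Matrix.Norms.Operator ContDiff ComplexConjugate ComplexOrder
open Set Filter Metric Matrix Complex MeasureTheory
open Vale.Agent.P281Z.Hm Vale.Agent.P275GC Vale.Agent.P275GC.At Vale.Agent.P275MO
open Vale.Agent.P275NA (Fm Cy Mn db dz ad nq)
open Vale.Agent.P275RR (ex ex_O ex_not)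
open Vale.Agent.P275HK (cd_mul cd_trace cd_ad pd_ne)
open Vale.Agent.P275K0 Vale.Agent.P275MB

noncomputable section

namespace Vale.Agent.P275KS

variable {C : Type} [TopologicalSpace C] {A : At C} {n : ℕ} {l m m' : Cy A ℂ} {g : Cy A (Mn n)}
  {i j i0 : Fin A.N} {w : ℂ} {z : Dat C A.N n} {U V : Fm A (Mn n)}

/-- identities extend over the pole -/
theorem eq_off {X : Type} [TopologicalSpace X] [T2Space X] {x : C} {F G : ℂ → X}
    (hw : w ∈ ball (0 : ℂ) A.R) (hF : ContinuousAt F w) (hG : ContinuousAt G w)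
    (h : ∀ᶠ y in 𝓝 w, y ∈ off A x i → F y = G y) : F w = G w := by
  by_cases a : (A.e i).symm w = x
  · have b : ∀ᶠ y in 𝓝[≠] w, y ∈ off A x i := by
      have := off_ev (i := i) (x := x) (a ▸ map_tgt hw)
      rwa [← a, rinv hw, a] at this
    exact tendsto_nhds_unique_of_eventuallyEq (hF.mono_left nhdsWithin_le_nhds)
      (hG.mono_left nhdsWithin_le_nhds) (((h.filter_mono nhdsWithin_le_nhds).and b).mono
        fun y p => p.1 p.2)
  · exact h.self_of_nhds ⟨hw, a⟩

theorem ESec.eq (hg : A.Cc g) (h : ESec A g m U) (a : w ∈ A.O i j) :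
    U i w = m i j w • (g i j w * U j (A.tr i j w) * g j i (A.tr i j w)) :=
  (esec_iff hg m U).1 h i j w a

theorem tr_sec (hg : A.Cc g) (h : ESec A g m U) (h' : ESec A g m' V) :
    A.Sec (fun i j w => m i j w * m' i j w) fun i w => trace (U i w * V i w) := fun i j w a => by
  have k : ∀ X : Mn n, g j i (A.tr i j w) * (g i j w * X) = X := fun X => by
    rw [← Matrix.mul_assoc, hg.inv' a, Matrix.one_mul]
  have := tr_cj (hg.inv' a) (U j (A.tr i j w) * V j (A.tr i j w))
  simp only [ESec.eq hg h a, ESec.eq hg h' a, Matrix.smul_mul, Matrix.mul_smul, trace_smul,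
    Matrix.mul_assoc, k, mul_smul] at this ⊢
  rw [this, smul_comm]

theorem ad_sec (hg : A.Cc g) {k : Fm A (Mn n)} (K : A.MtM ∞ g k) (h : ESec A g m V) :
    ESec A g (fun i j w => conj (m i j w)) fun i w => ad (k i w) (k i w) (V i w) :=
  fun i j w a => by
    have d := hg.det.ne a
    have u := isUnit_iff_ne_zero.2 d
    have e : (g i j w)⁻¹ * V i w * g i j w = m i j w • V j (A.tr i j w) := by
      rw [Matrix.mul_assoc, h i j w a, Matrix.mul_smul, nonsing_inv_mul_cancel_left _ _ u]
    have := P275HK.ad_frame d d (k i w) (k i w) (V i w)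
    rw [← K.tr i j w a, e, P275HK.ad_smul] at this
    simp only
    rw [← Matrix.mul_smul, this, Matrix.mul_assoc, mul_nonsing_inv_cancel_left _ _ u]

/-- the covariant derivative of an endomorphism which commutes with the residue -/
theorem exists_V (G : Good A l z) (hU : A.Hl U) (e : ESec A z.g (fun _ _ _ => 1) U)
    (t : ∀ i, ∀ w ∈ ball (0 : ℂ) A.R, trace (U i w) = 0) [T2Space C]
    (c : ∀ i, z.x ∈ (A.e i).source → z.σ i * z.R * (z.σ i)⁻¹ * U i (A.e i z.x) =
      U i (A.e i z.x) * (z.σ i * z.R * (z.σ i)⁻¹)) :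
    ∃ V : Fm A (Mn n), A.Hl V ∧ ESec A z.g A.d V ∧
      (∀ i, ∀ w ∈ ball (0 : ℂ) A.R, trace (V i w) = 0) ∧ ∀ i, ∀ w ∈ off A z.x i,
      V i w = z.lam • deriv (U i) w + (z.a i w * U i w - U i w * z.a i w) := by
  have ex : ∀ i, ∃ N : ℂ → Mn n, DifferentiableOn ℂ N (ball 0 A.R) ∧ ∀ w ∈ off A z.x i,
      N w = z.a i w * U i w - U i w * z.a i w := fun i => by
    by_cases hx : z.x ∈ (A.e i).source
    · refine ⟨dslope (fun w => fill A z i w * U i w - U i w * fill A z i w) (A.e i z.x),
        (differentiableOn_dslope (isOpen_ball.mem_nhds (map_src hx))).2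
          (((Good.fill G hx).mul (hU i)).sub ((hU i).mul (Good.fill G hx))), fun w a => ?_⟩
      rw [dslope_of_ne _ ((off_iff hx).1 a).2, slope_def_module, fill_at hx, c i hx, sub_self,
        sub_zero, a_eq_fill hx a, smul_sub, Matrix.smul_mul, Matrix.mul_smul]
    · have := (G.hol i).mono fun w a => off_of_not hx a
      exact ⟨_, (this.mul (hU i)).sub ((hU i).mul this), fun _ _ => rfl⟩
  choose N N1 N2 using ex
  have hV : A.Hl fun i w => z.lam • deriv (U i) w + N i w := fun i =>
    (((hU i).deriv isOpen_ball).const_smul z.lam).add (N1 i)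
  refine ⟨_, hV, fun i j w a => eq_off (x := z.x) (i := i)
    (F := fun w => (z.lam • deriv (U i) w + N i w) * z.g i j w)
    (G := fun w => A.d i j w • (z.g i j w * (z.lam • deriv (U j) (A.tr i j w) + N j (A.tr i j w))))
    a.1 ((hV.an a.1 i).continuousAt.mul (G.cc.an a).continuousAt)
    ((an_d a).continuousAt.smul ((G.cc.an a).continuousAt.mul
      (((hV.an (tr_ball a) j).comp (an_tr a)).continuousAt)))
    (eventually_of_mem (O_nhds a) fun w a o => ?_), fun i w a => eq_off (x := z.x) (i := i)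
    (F := fun w => trace (z.lam • deriv (U i) w + N i w)) (G := fun _ => 0) a
    (an_trace (hV.an a i)).continuousAt continuousAt_const (Eventually.of_forall fun w o => ?_),
    fun i w a => by rw [N2 i w a]⟩
  · obtain ⟨c, b⟩ := G.law i j w a o.2
    have e0 : ∀ᶠ y in 𝓝 w, U i y * z.g i j y = z.g i j y * U j (A.tr i j y) :=
      eventually_of_mem (O_nhds a) fun y p => (e i j y p).trans (one_smul _ _)
    have d : deriv (U i) w * z.g i j w + U i w * deriv (z.g i j) w = deriv (z.g i j) w *
        U j (A.tr i j w) + z.g i j w * A.d i j w • deriv (U j) (A.tr i j w) :=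
      ((hU.an a.1 i).differentiableAt.hasDerivAt.mul (G.cc.an a).differentiableAt.hasDerivAt).unique
        (((G.cc.an a).differentiableAt.hasDerivAt.mul ((hU.an (tr_ball a)
          j).differentiableAt.hasDerivAt.scomp w (has_tr a))).congr_of_eventuallyEq e0)
    have e1 := e0.self_of_nhds
    have a' := congrArg (U i w * ·) b
    have b' := congrArg (· * U j (A.tr i j w)) b
    have d' := congrArg (z.lam • ·) d
    rw [N2 i w o, N2 j _ (off_tr a o.2)]
    simp only [mul_add, add_mul, mul_sub, sub_mul, smul_add, smul_sub, mul_smul_comm,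
      smul_mul_assoc, mul_assoc, e1, smul_comm z.lam (A.d i j w)] at a' b' d' ⊢
    rw [← mul_assoc (U i w) (z.g i j w), e1, mul_assoc] at a'
    linear_combination (norm := module) b' + d' - a'
  · have d := (hU.an o.1 i).differentiableAt
    have k := (tr_dz (d.restrictScalars ℝ) (eventually_of_mem (isOpen_ball.mem_nhds o.1) (t i))).1
    rw [show dz (U i) w = deriv (U i) w from dz_hol d] at k
    rw [N2 i w o, trace_add, trace_smul, trace_sub, trace_mul_comm, sub_self, add_zero, k,
      smul_zero]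

variable [T2Space C]

/-- the pairing with the derivative of the polar part is the value at the pole -/
theorem int_dp (hg : A.Cc g) (hU : A.Hl U) (e : ESec A g (fun _ _ _ => 1) U) {ξ : ℂ} {ε : ℝ}
    {χ0 χ : ℂ → ℂ} (hε : 0 < ε) (h1 : ‖ξ‖ + ε < 1) (c : Cu ξ ε χ0 χ) (Y : Mn n) :
    A.int (fun i w => trace (U i w * dp A g i0 χ0 ξ Y i w)) =
      -((Real.pi : ℂ) • trace (U i0 ξ * Y)) := by
  have K := cb_sub (A := A) h1 (half_le_self hε.le)
  have ts : tsupport χ0 ⊆ closedBall ξ (ε / 2) := closure_minimal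
    (fun y hy => by_contra fun h => hy (c.z0 y h)) isClosed_closedBall
  have an : ∀ y ∈ ball (0 : ℂ) A.R, AnalyticAt ℂ (fun y => trace (U i0 y * Y)) y := fun y hy =>
    an_trace (an_mul (hU.an hy i0) analyticAt_const)
  have s : ContDiffOn ℝ 1 (fun y => trace (U i0 y * Y)) (ball 0 A.R) := fun y hy =>
    (cd_an (an y hy)).contDiffWithinAt
  have c1 : ContDiff ℝ 1 χ0 := c.s0.of_le (by simp)
  have F1 := P275CT.cd_cut isOpen_ball c1 (ts.trans K) s
  have F2 := P275CT.cs_cut (F := ℂ) (HasCompactSupport.of_support_subset_isCompact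
    (isCompact_closedBall ξ (ε / 2)) ((subset_tsupport χ0).trans ts)) fun y => trace (U i0 y * Y)
  have F3 : ∀ y, trace (U i0 y * ((db χ0 y / (y - ξ)) • Y)) =
      (y - ξ)⁻¹ • db (fun y => χ0 y • trace (U i0 y * Y)) y := fun y => by
    rw [P275CT.db_cut isOpen_ball c1 (ts.trans K) s, Matrix.mul_smul, trace_smul]
    by_cases hy : y ∈ ball (0 : ℂ) A.R
    · rw [show db (fun y => trace (U i0 y * Y)) y = 0 from wb_hol (an y hy).differentiableAt 1]
      simp only [smul_eq_mul]; ring
    · rw [c.z0 y fun h => hy (K h)]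
      simp only [smul_eq_mul]; ring
  have I : Integrable fun y => trace (U i0 y * ((db χ0 y / (y - ξ)) • Y)) :=
    ((P275CT.kn_inv.int' (P275CT.db_cont F1) (P275CT.db_cs F2) ξ).neg).congr
      (Eventually.of_forall fun y => by
        simp only [F3, Pi.neg_apply]; rw [← neg_smul, ← inv_neg, neg_sub])
  rw [int_congr' (v := A.dn i0 fun y => trace (U i0 y * ((db χ0 y / (y - ξ)) • Y))) fun i w hw => ?_,
    int_dn I.integrableOn, setIntegral_eq_integral_of_forall_compl_eq_zero fun y hy => by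
      rw [Cu.db_out c fun h => hy (K h), zero_div, zero_smul, Matrix.mul_zero, trace_zero]]
  · simp only [F3]
    rw [← integral_add_left_eq_self _ ξ]
    simp only [add_sub_cancel_left]
    rw [P275CT.pomp0 F1 F2, c.o0 ξ (mem_ball_self (by linarith)), one_smul]
  · by_cases a : w ∈ A.O i i0
    · have k : ∀ X : Mn n, g i0 i (A.tr i i0 w) * (g i i0 w * X) = X := fun X => by
        rw [← Matrix.mul_assoc, hg.inv' a, Matrix.one_mul]
      have := tr_cj (hg.inv' a) (U i0 (A.tr i i0 w) * Y)
      rw [dn_tr _ a, dp, ex_O a, bar_apply, ESec.eq hg e a, real_smul, normSq_eq_conj_mul_self]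
      simp only [Matrix.smul_mul, Matrix.mul_smul, trace_smul, k, one_smul,
        smul_eq_mul, mul_assoc] at this ⊢
      rw [this]
    · rw [dn_not _ hw a, dp, ex_not a, Matrix.mul_zero, trace_zero]

/-- a holomorphic section of `End ⊗ K` which is orthogonal to the Kodaira-Spencer directions -/
theorem zero_of_ks {ξ : ℂ} {ε : ℝ} (hg : A.Cc g) (B : Vb A l g i0 ξ ε) (hV : A.Hl V)
    (e : ESec A g A.d V) (t : ∀ i, ∀ w ∈ ball (0 : ℂ) A.R, trace (V i w) = 0)
    (h : ∀ s, A.int (fun i w => trace (B.sf s i w * V i w)) = 0) (i : Fin A.N) (w : ℂ)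
    (hw : w ∈ ball (0 : ℂ) A.R) : V i w = 0 := by
  have K := hg.mtM
  have sV : A.Sm ∞ V := hV.sm
  obtain ⟨s, v, v1, v2, v3⟩ := B.ks (fun i w => ad (A.mtM g i w) (A.mtM g i w) (V i w))
    (fun i w a => (cd_ad (K.sm.at a i) (pd_ne (K.pos i w a)) (K.sm.at a i)
      (sV.at a i)).contDiffWithinAt) (ad_sec hg K e) fun i w a => by
      rw [P275HK.tr_ad (P275HK.pd_det (K.pos i w a)), t i w a, map_zero]
  have sm : ∀ {u : Fm A (Mn n)}, A.Sm ∞ u → A.Sm ∞ fun i w => trace (u i w * V i w) :=
    fun hu i w a => (cd_trace (cd_mul (hu.at a i) (sV.at a i))).contDiffWithinAt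
  have st := F10.int_db (u := fun i w => trace (v i w * V i w))
    ((tr_sec hg v2 e).congr fun _ _ _ _ => one_mul _) ((sm v1).of_le (by simp))
  have e1 : A.int (fun i w => (nq (A.mtM g i w) (A.mtM g i w) (V i w) : ℂ)) = 0 := by
    rw [← add_zero 0]
    nth_rw 1 [← h s]
    rw [← st, ← int_add (sm (B.sm s)).ct.in ((sm v1).db (m := 0) (by simp)).ct.in]
    refine int_congr' fun i w a => ?_
    have d1 := v1.df (by simp) a i
    have d2 := (hV.an a i).differentiableAt
    rw [← P275HK.tr_nq (K.pos i w a) (K.pos i w a), v3 i w a, Matrix.add_mul, trace_add, db, db,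
      wb_trace (df_mul d1 (d2.restrictScalars ℝ)), wb_mul d1 (d2.restrictScalars ℝ), wb_hol d2,
      Matrix.mul_zero, add_zero]
  rw [int_ofReal, ofReal_eq_zero] at e1
  obtain ⟨j, a, b⟩ := ex_unit hw i
  have p := K.pos j _ (tr_ball a)
  rw [ESec.eq hg e a, P275HK.nq_zero p p (int_eq_zero (fun i w a => (P275HK.cd_nq (K.sm.at a i)
    (pd_ne (K.pos i w a)) (K.sm.at a i) (sV.at a i)).continuousAt.continuousWithinAt)
    (fun i w a => P275HK.nq_nonneg (K.pos i w (mem_of_le a.le)) (K.pos i w (mem_of_le a.le)) _)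
    e1 j b), Matrix.mul_zero, Matrix.zero_mul, smul_zero]

theorem sur' (simp : SIMP n A l) : SUR n A l := by
  intro z i0 ε B χ0 χ u G S hx hε h1 c hu law h
  let U : Fm A (Mn n) := fun i w => Matrix.of fun a b => u i w (tf (single b a 1))
  have e0 : ∀ i w Y, u i w (tf Y) = trace (U i w * Y) := fun i w Y => by
    have tL : ∀ Y : Mn n, tf Y = ∑ a, ∑ b, Y b a • tf (single b a (1 : ℂ)) := fun Y => by
      let L : Mn n →ₗ[ℂ] Mn n := ⟨⟨tf, tf_add⟩, tf_smul⟩
      show L Y = ∑ a, ∑ b, Y b a • L (single b a 1)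
      simp only [← map_smul, ← map_sum, smul_single, smul_eq_mul, mul_one]
      rw [Finset.sum_comm, ← matrix_eq_sum_single]
    rw [tL Y]
    simp only [map_sum, map_smul, trace, diag, Matrix.mul_apply, U, of_apply, smul_eq_mul, mul_comm]
  have e1 : ∀ i w Y, trace Y = 0 → u i w Y = trace (U i w * Y) := fun i w Y t => by
    rw [← e0, tf_of t]
  have hU : A.Hl U := hl_of fun i w a => an_of fun p q =>
    ((ContinuousLinearMap.apply ℂ ℂ (tf (single q p 1))).analyticAt _).comp (hu.an a i)
  have tU : ∀ i, ∀ w ∈ ball (0 : ℂ) A.R, trace (U i w) = 0 := fun i w _ => by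
    rcases n.eq_zero_or_pos with rfl | hn
    · simp [trace]
    rw [← Matrix.mul_one (U i w), ← e0, tf, trace_one, Fintype.card_fin,
      inv_mul_cancel₀ (Nat.cast_ne_zero.2 hn.ne'), one_smul, sub_self, map_zero]
  have eU : ESec A z.g (fun _ _ _ => 1) U := fun i j w a => by
    have : z.g j i (A.tr i j w) * U i w * z.g i j w = U j (A.tr i j w) :=
      ext_iff_trace_mul_right.2 fun Y => by
        have := congrArg (fun L : CL (Mn n) ℂ => L (tf Y)) (law i j w a)
        simp only [ContinuousLinearMap.comp_apply, ← adK_tf G.cc a, e0, adK_apply, Matrix.mul_smul,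
          trace_smul, _root_.smul_apply] at this
        rw [← smul_right_injective ℂ (d_ne a) this, Matrix.mul_assoc, Matrix.mul_assoc,
          trace_mul_comm, Matrix.mul_assoc, Matrix.mul_assoc]
    rw [← this, one_smul, Matrix.mul_assoc, ← Matrix.mul_assoc, G.cc.inv a, Matrix.one_mul]
  have tp : ∀ X Y : Mn n, trace (X * Y - Y * X) = 0 := fun X Y => by
    rw [trace_sub, trace_mul_comm, sub_self]
  have td := (cp0 A n z.g i0 _ ε G.cc hε h1).2.2.2.2.2.2 χ0 χ c
  have c0 : z.σ i0 * z.R * (z.σ i0)⁻¹ * U i0 (A.e i0 z.x) =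
      U i0 (A.e i0 z.x) * (z.σ i0 * z.R * (z.σ i0)⁻¹) := ext_iff_trace_mul_left.2 fun X => by
    have := h 0 X
    rw [int_congr' (v := fun i w => trace (U i w * dp A z.g i0 χ0 (A.e i0 z.x) (X * (z.σ i0 * z.R *
      (z.σ i0)⁻¹) - z.σ i0 * z.R * (z.σ i0)⁻¹ * X) i w)) fun i w _ => by
        rw [map_zero, ← e1 _ _ _ ((td.2.2.2.2.2.1 _ _).2.2 (tp _ _) i w).2]
        simp [show dz (0 : ℂ → Mn n) w = 0 from wd_const _ _ _],
      int_dp G.cc hU eU hε h1 c, neg_eq_zero, smul_eq_zero, Matrix.mul_sub, trace_sub,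
      sub_eq_zero] at this
    rw [← Matrix.mul_assoc, trace_mul_comm, this.resolve_left P275CT.pi_ne, trace_mul_comm X,
      Matrix.mul_assoc (U i0 _)]
  obtain ⟨V, V1, V2, V3, V4⟩ := exists_V G hU eU tU fun i hi => by
    have a := mem_O hi hx
    have k : ∀ X : Mn n, z.g i0 i (A.e i0 z.x) * (z.g i i0 (A.e i z.x) * X) = X := fun X => by
      rw [← Matrix.mul_assoc, ← tr_e (j := i0) hi, G.cc.inv' a, Matrix.one_mul]
    rw [G.frc i i0 hi hx, ESec.eq G.cc eU a, Matrix.mul_inv_rev, inv_eq_right_inv (G.cc.inv a),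
      tr_e hi, one_smul]
    have := congrArg (fun X => z.g i i0 (A.e i z.x) * X * z.g i0 i (A.e i0 z.x)) c0
    simpa only [Matrix.mul_assoc, k] using this
  have V0 := zero_of_ks G.cc B V1 V2 V3 fun s => by
    have sU : A.Sm ∞ U := hU.sm
    have sm : A.Sm ∞ fun i w => trace (U i w * B.sf s i w) := fun i w a =>
      (cd_trace (cd_mul (sU.at a i) ((B.sm s).at a i))).contDiffWithinAt
    have st := F01.int_dz (u := fun i w => trace (U i w * B.sf s i w))
      ((tr_sec G.cc eU (B.law s)).congr fun _ _ _ _ => one_mul _) (sm.of_le (by simp))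
    have cV : A.Ct fun i w => trace (B.sf s i w * V i w) := fun i w a =>
      (cd_trace (cd_mul ((B.sm s).at a i) (V1.sm.at a i))).continuousAt.continuousWithinAt
    have cD := (sm.dz (m := 0) (by simp)).ct
    have := h s 0
    rw [int_congr' (v := fun i w => trace (B.sf s i w * V i w) -
      z.lam * dz (fun w => trace (U i w * B.sf s i w)) w) fun i w a => ?_, int_sub cV.in
        (Ct.in (u := fun i w => z.lam * dz (fun w => trace (U i w * B.sf s i w)) w) fun i =>
          continuousOn_const.mul (cD i)), int_cmul, st, mul_zero, sub_zero] at this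
    · exact this
    have d1 := (hU.an a i).differentiableAt
    have d2 := (B.sm s).df (by simp) a i
    have z0 : dp A z.g i0 χ0 (A.e i0 z.x) 0 i w = 0 := by
      by_cases b : w ∈ A.O i i0
      · rw [dp, ex_O b, smul_zero, map_zero]
      · exact ex_not b
    have e2 : trace (B.sf s i w * V i w) = trace (B.sf s i w * (z.lam • deriv (U i) w +
        (z.a i w * U i w - U i w * z.a i w))) := by
      by_cases b : (A.e i).symm w = z.x
      · have o : w ∈ A.O i i0 := ⟨a, show (A.e i).symm w ∈ (A.e i0).source from b ▸ hx⟩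
        rw [ESec.eq G.cc (B.law s) o, B.van s _ (by rw [At.tr, b]; exact mem_ball_self hε)]
        simp
      · rw [V4 i w ⟨a, b⟩]
    rw [Matrix.zero_mul, Matrix.mul_zero, sub_self, z0, add_zero, e1 _ _ _ (by
      rw [trace_sub, tp, trace_smul, (tr_dz d2 (eventually_of_mem (isOpen_ball.mem_nhds a)
        (B.tr s i))).1, smul_zero, sub_self]), e2, dz, dz, wd_trace (df_mul (d1.restrictScalars ℝ) d2),
      wd_mul (d1.restrictScalars ℝ) d2, show wd 1 (U i) w = deriv (U i) w from dz_hol d1]
    simp only [Matrix.mul_sub, Matrix.mul_add, Matrix.mul_smul, trace_sub, trace_add, trace_smul,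
      smul_eq_mul, ← Matrix.mul_assoc]
    rw [trace_mul_comm (B.sf s i w) (deriv _ _), trace_mul_cycle (B.sf s i w) (z.a i w),
      trace_mul_cycle (U i w) (z.a i w)]
    ring
  obtain ⟨c1, hc⟩ := (simp z z U G G S S ⟨rfl, rfl, hU, fun i j w a =>
    (eU i j w a).trans (one_smul _ _), fun i w a => by
      rw [← sub_eq_zero, add_sub_assoc, ← V4 i w a, V0 i w a.1]⟩).2 rfl
  intro i w a Y
  have := tU i w a
  rcases n.eq_zero_or_pos with rfl | hn
  · rw [e0]; simp [trace]
  rw [hc i w a, trace_smul, trace_one, Fintype.card_fin, smul_eq_mul, mul_eq_zero,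
    Nat.cast_eq_zero] at this
  rw [e0, hc i w a, this.resolve_right hn.ne', zero_smul, Matrix.zero_mul, trace_zero]

theorem sur [ConnectedSpace C] (A : At C) (l : Cy A ℂ) (n : ℕ) : SUR n A l := sur' (simp A l n)

end Vale.Agent.P275KS
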